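import Vale.Agent.P181.S.CDefs

namespace Vale.Agent.P181.S

def FT0x : List Int := [Int.ofNat 1, Int.ofNat 5, Int.ofNat 15, Int.ofNat 35, Int.ofNat 70, Int.ofNat 126, Int.ofNat 210, Int.ofNat 330, Int.ofNat 495, Int.ofNat 715, Int.ofNat 1001, Int.ofNat 1365, Int.ofNat 1820, Int.ofNat 2380, Int.ofNat 3060, Int.ofNat 3876, Int.ofNat 4845, Int.ofNat 5985, Int.ofNat 7315, Int.ofNat 8855, Int.ofNat 10626, Int.ofNat 12650, Int.ofNat 14950, Int.ofNat 17550, Int.ofNat 20475, Int.ofNat 23751, Int.ofNat 27405, Int.ofNat 31465, Int.ofNat 35960, Int.ofNat 40920, Int.ofNat 46376, Int.ofNat 52360, Int.ofNat 58905, Int.ofNat 66045, Int.ofNat 73815, Int.ofNat 82251, Int.ofNat 91390, Int.ofNat 101270, Int.ofNat 111930, Int.ofNat 123410, Int.ofNat 135751, Int.ofNat 148995, Int.ofNat 163185, Int.ofNat 178365, Int.ofNat 194580, Int.ofNat 211876, Int.ofNat 230300, Int.ofNat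 249900, Int.ofNat 270725, Int.ofNat 292825, Int.ofNat 316251, Int.ofNat 341055, Int.ofNat 367290, Int.ofNat 395010, Int.ofNat 424270, Int.ofNat 455126, Int.ofNat 487635, Int.ofNat 521855, Int.ofNat 557845, Int.ofNat 595665, Int.ofNat 635376, Int.ofNat 677040, Int.ofNat 720720, Int.ofNat 766480, Int.ofNat 814385, Int.ofNat 864501, Int.ofNat 916895, Int.ofNat 971635, Int.ofNat 1028790, Int.ofNat 1088430, Int.ofNat 1150626, Int.ofNat 1215450, Int.ofNat 1282975, Int.ofNat 1353275, Int.ofNat 1426425, Int.ofNat 1502501, Int.ofNat 1581580]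

def FT1x : List Int := [Int.ofNat 1, Int.ofNat 3, Int.ofNat 7, Int.ofNat 13, Int.ofNat 22, Int.ofNat 34, Int.ofNat 50, Int.ofNat 70, Int.ofNat 95, Int.ofNat 125, Int.ofNat 161, Int.ofNat 203, Int.ofNat 252, Int.ofNat 308, Int.ofNat 372, Int.ofNat 444, Int.ofNat 525, Int.ofNat 615, Int.ofNat 715, Int.ofNat 825, Int.ofNat 946, Int.ofNat 1078, Int.ofNat 1222, Int.ofNat 1378, Int.ofNat 1547, Int.ofNat 1729, Int.ofNat 1925, Int.ofNat 2135, Int.ofNat 2360, Int.ofNat 2600, Int.ofNat 2856, Int.ofNat 3128, Int.ofNat 3417, Int.ofNat 3723, Int.ofNat 4047, Int.ofNat 4389, Int.ofNat 4750, Int.ofNat 5130, Int.ofNat 5530, Int.ofNat 5950, Int.ofNat 6391, Int.ofNat 6853, Int.ofNat 7337, Int.ofNat 7843, Int.ofNat 8372, Int.ofNat 8924, Int.ofNat 9500, Int.ofNat 10100, Int.ofNat 10725, Int.ofNat 11375, Int.ofNat 12051, Int.ofNat 12753, Int.ofNat 13482, Int.ofNat 14238, Int.ofNat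 15022, Int.ofNat 15834, Int.ofNat 16675, Int.ofNat 17545, Int.ofNat 18445, Int.ofNat 19375, Int.ofNat 20336, Int.ofNat 21328, Int.ofNat 22352, Int.ofNat 23408, Int.ofNat 24497, Int.ofNat 25619, Int.ofNat 26775, Int.ofNat 27965, Int.ofNat 29190, Int.ofNat 30450, Int.ofNat 31746, Int.ofNat 33078, Int.ofNat 34447, Int.ofNat 35853, Int.ofNat 37297, Int.ofNat 38779, Int.ofNat 40300]

def FT2x : List Int := [Int.ofNat 1, Int.ofNat 1, Int.ofNat 3, Int.ofNat 3, Int.ofNat 6, Int.ofNat 6, Int.ofNat 10, Int.ofNat 10, Int.ofNat 15, Int.ofNat 15, Int.ofNat 21, Int.ofNat 21, Int.ofNat 28, Int.ofNat 28, Int.ofNat 36, Int.ofNat 36, Int.ofNat 45, Int.ofNat 45, Int.ofNat 55, Int.ofNat 55, Int.ofNat 66, Int.ofNat 66, Int.ofNat 78, Int.ofNat 78, Int.ofNat 91, Int.ofNat 91, Int.ofNat 105, Int.ofNat 105, Int.ofNat 120, Int.ofNat 120, Int.ofNat 136, Int.ofNat 136, Int.ofNat 153,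 Int.ofNat 153, Int.ofNat 171, Int.ofNat 171, Int.ofNat 190, Int.ofNat 190, Int.ofNat 210, Int.ofNat 210, Int.ofNat 231, Int.ofNat 231, Int.ofNat 253, Int.ofNat 253, Int.ofNat 276, Int.ofNat 276, Int.ofNat 300, Int.ofNat 300, Int.ofNat 325, Int.ofNat 325, Int.ofNat 351, Int.ofNat 351, Int.ofNat 378, Int.ofNat 378, Int.ofNat 406, Int.ofNat 406, Int.ofNat 435, Int.ofNat 435, Int.ofNat 465, Int.ofNat 465, Int.ofNat 496, Int.ofNat 496, Int.ofNat 528, Int.ofNat 528, Int.ofNat 561, Int.ofNat 561, Int.ofNat 595, Int.ofNat 595, Int.ofNat 630, Int.ofNat 630, Int.ofNat 666, Int.ofNat 666, Int.ofNat 703, Int.ofNat 703, Int.ofNat 741, Int.ofNat 741, Int.ofNat 780]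

def FT3x : List Int := [Int.ofNat 1, Int.negSucc 0, Int.ofNat 3, Int.negSucc 2, Int.ofNat 6, Int.negSucc 5, Int.ofNat 10, Int.negSucc 9, Int.ofNat 15, Int.negSucc 14, Int.ofNat 21, Int.negSucc 20, Int.ofNat 28, Int.negSucc 27, Int.ofNat 36, Int.negSucc 35, Int.ofNat 45, Int.negSucc 44, Int.ofNat 55, Int.negSucc 54, Int.ofNat 66, Int.negSucc 65, Int.ofNat 78, Int.negSucc 77, Int.ofNat 91, Int.negSucc 90, Int.ofNat 105, Int.negSucc 104, Int.ofNat 120, Int.negSucc 119, Int.ofNat 136, Int.negSucc 135, Int.ofNat 153, Int.negSucc 152, Int.ofNat 171, Int.negSucc 170, Int.ofNat 190, Int.negSucc 189, Int.ofNat 210, Int.negSucc 209, Int.ofNat 231, Int.negSucc 230, Int.ofNat 253, Int.negSucc 252, Int.ofNat 276, Int.negSucc 275, Int.ofNat 300, Int.negSucc 299, Int.ofNat 325, Int.negSucc 324, Int.ofNat 351, Int.negSucc 350, Int.ofNat 378, Int.negSucc 377, Int.ofNat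 406, Int.negSucc 405, Int.ofNat 435, Int.negSucc 434, Int.ofNat 465, Int.negSucc 464, Int.ofNat 496, Int.negSucc 495, Int.ofNat 528, Int.negSucc 527, Int.ofNat 561, Int.negSucc 560, Int.ofNat 595, Int.negSucc 594, Int.ofNat 630, Int.negSucc 629, Int.ofNat 666, Int.negSucc 665, Int.ofNat 703, Int.negSucc 702, Int.ofNat 741, Int.negSucc 740, Int.ofNat 780]

def FT4x : List Int := [Int.ofNat 1, Int.ofNat 2, Int.ofNat 3, Int.ofNat 5, Int.ofNat 7, Int.ofNat 9, Int.ofNat 12, Int.ofNat 15, Int.ofNat 18, Int.ofNat 22, Int.ofNat 26, Int.ofNat 30, Int.ofNat 35, Int.ofNat 40, Int.ofNat 45, Int.ofNat 51, Int.ofNat 57, Int.ofNat 63, Int.ofNat 70, Int.ofNat 77, Int.ofNat 84, Int.ofNat 92, Int.ofNat 100, Int.ofNat 108, Int.ofNat 117, Int.ofNat 126, Int.ofNat 135, Int.ofNat 145, Int.ofNat 155, Int.ofNat 165, Int.ofNat 176, Int.ofNat 187, Int.ofNat 198, Int.ofNat 210, Int.ofNat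 222, Int.ofNat 234, Int.ofNat 247, Int.ofNat 260, Int.ofNat 273, Int.ofNat 287, Int.ofNat 301, Int.ofNat 315, Int.ofNat 330, Int.ofNat 345, Int.ofNat 360, Int.ofNat 376, Int.ofNat 392, Int.ofNat 408, Int.ofNat 425, Int.ofNat 442, Int.ofNat 459, Int.ofNat 477, Int.ofNat 495, Int.ofNat 513, Int.ofNat 532, Int.ofNat 551, Int.ofNat 570, Int.ofNat 590, Int.ofNat 610, Int.ofNat 630, Int.ofNat 651, Int.ofNat 672, Int.ofNat 693, Int.ofNat 715, Int.ofNat 737, Int.ofNat 759, Int.ofNat 782, Int.ofNat 805, Int.ofNat 828, Int.ofNat 852, Int.ofNat 876, Int.ofNat 900, Int.ofNat 925, Int.ofNat 950, Int.ofNat 975, Int.ofNat 1001, Int.ofNat 1027]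

def FT5x : List Int := [Int.ofNat 1, Int.ofNat 0, Int.ofNat 1, Int.ofNat 1, Int.ofNat 1, Int.ofNat 1, Int.ofNat 2, Int.ofNat 1, Int.ofNat 2, Int.ofNat 2, Int.ofNat 2, Int.ofNat 2, Int.ofNat 3, Int.ofNat 2, Int.ofNat 3, Int.ofNat 3, Int.ofNat 3, Int.ofNat 3, Int.ofNat 4, Int.ofNat 3, Int.ofNat 4, Int.ofNat 4, Int.ofNat 4, Int.ofNat 4, Int.ofNat 5, Int.ofNat 4, Int.ofNat 5, Int.ofNat 5, Int.ofNat 5, Int.ofNat 5, Int.ofNat 6, Int.ofNat 5, Int.ofNat 6, Int.ofNat 6, Int.ofNat 6, Int.ofNat 6, Int.ofNat 7, Int.ofNat 6, Int.ofNat 7, Int.ofNat 7, Int.ofNat 7, Int.ofNat 7, Int.ofNat 8, Int.ofNat 7, Int.ofNat 8, Int.ofNat 8, Int.ofNat 8, Int.ofNat 8, Int.ofNat 9, Int.ofNat 8, Int.ofNat 9, Int.ofNat 9, Int.ofNat 9, Int.ofNat 9, Int.ofNat 10, Int.ofNat 9, Int.ofNat 10, Int.ofNat 10, Int.ofNat 10, Int.ofNat 10, Int.ofNat 11, Int.ofNat 10, Int.ofNat 11, Int.ofNat 11,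 Int.ofNat 11, Int.ofNat 11, Int.ofNat 12, Int.ofNat 11, Int.ofNat 12, Int.ofNat 12, Int.ofNat 12, Int.ofNat 12, Int.ofNat 13, Int.ofNat 12, Int.ofNat 13, Int.ofNat 13, Int.ofNat 13]

def FT6x : List Int := [Int.ofNat 1, Int.negSucc 0, Int.ofNat 0, Int.ofNat 2, Int.negSucc 1, Int.ofNat 0, Int.ofNat 3, Int.negSucc 2, Int.ofNat 0, Int.ofNat 4, Int.negSucc 3, Int.ofNat 0, Int.ofNat 5, Int.negSucc 4, Int.ofNat 0, Int.ofNat 6, Int.negSucc 5, Int.ofNat 0, Int.ofNat 7, Int.negSucc 6, Int.ofNat 0, Int.ofNat 8, Int.negSucc 7, Int.ofNat 0, Int.ofNat 9, Int.negSucc 8, Int.ofNat 0, Int.ofNat 10, Int.negSucc 9, Int.ofNat 0, Int.ofNat 11, Int.negSucc 10, Int.ofNat 0, Int.ofNat 12, Int.negSucc 11, Int.ofNat 0, Int.ofNat 13, Int.negSucc 12, Int.ofNat 0, Int.ofNat 14, Int.negSucc 13, Int.ofNat 0, Int.ofNat 15, Int.negSucc 14, Int.ofNat 0, Int.ofNat 16, Int.negSucc 15, Int.ofNat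 0, Int.ofNat 17, Int.negSucc 16, Int.ofNat 0, Int.ofNat 18, Int.negSucc 17, Int.ofNat 0, Int.ofNat 19, Int.negSucc 18, Int.ofNat 0, Int.ofNat 20, Int.negSucc 19, Int.ofNat 0, Int.ofNat 21, Int.negSucc 20, Int.ofNat 0, Int.ofNat 22, Int.negSucc 21, Int.ofNat 0, Int.ofNat 23, Int.negSucc 22, Int.ofNat 0, Int.ofNat 24, Int.negSucc 23, Int.ofNat 0, Int.ofNat 25, Int.negSucc 24, Int.ofNat 0, Int.ofNat 26, Int.negSucc 25]

def FT7x : List Int := [Int.ofNat 1, Int.ofNat 1, Int.ofNat 1, Int.ofNat 1, Int.ofNat 2, Int.ofNat 2, Int.ofNat 2, Int.ofNat 2, Int.ofNat 3, Int.ofNat 3, Int.ofNat 3, Int.ofNat 3, Int.ofNat 4, Int.ofNat 4, Int.ofNat 4, Int.ofNat 4, Int.ofNat 5, Int.ofNat 5, Int.ofNat 5, Int.ofNat 5, Int.ofNat 6, Int.ofNat 6, Int.ofNat 6, Int.ofNat 6, Int.ofNat 7, Int.ofNat 7, Int.ofNat 7, Int.ofNat 7, Int.ofNat 8, Int.ofNat 8, Int.ofNat 8, Int.ofNat 8, Int.ofNat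 9, Int.ofNat 9, Int.ofNat 9, Int.ofNat 9, Int.ofNat 10, Int.ofNat 10, Int.ofNat 10, Int.ofNat 10, Int.ofNat 11, Int.ofNat 11, Int.ofNat 11, Int.ofNat 11, Int.ofNat 12, Int.ofNat 12, Int.ofNat 12, Int.ofNat 12, Int.ofNat 13, Int.ofNat 13, Int.ofNat 13, Int.ofNat 13, Int.ofNat 14, Int.ofNat 14, Int.ofNat 14, Int.ofNat 14, Int.ofNat 15, Int.ofNat 15, Int.ofNat 15, Int.ofNat 15, Int.ofNat 16, Int.ofNat 16, Int.ofNat 16, Int.ofNat 16, Int.ofNat 17, Int.ofNat 17, Int.ofNat 17, Int.ofNat 17, Int.ofNat 18, Int.ofNat 18, Int.ofNat 18, Int.ofNat 18, Int.ofNat 19, Int.ofNat 19, Int.ofNat 19, Int.ofNat 19, Int.ofNat 20]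

def FT8x : List Int := [Int.ofNat 1, Int.negSucc 0, Int.ofNat 1, Int.negSucc 0, Int.ofNat 2, Int.negSucc 1, Int.ofNat 2, Int.negSucc 1, Int.ofNat 3, Int.negSucc 2, Int.ofNat 3, Int.negSucc 2, Int.ofNat 4, Int.negSucc 3, Int.ofNat 4, Int.negSucc 3, Int.ofNat 5, Int.negSucc 4, Int.ofNat 5, Int.negSucc 4, Int.ofNat 6, Int.negSucc 5, Int.ofNat 6, Int.negSucc 5, Int.ofNat 7, Int.negSucc 6, Int.ofNat 7, Int.negSucc 6, Int.ofNat 8, Int.negSucc 7, Int.ofNat 8, Int.negSucc 7, Int.ofNat 9, Int.negSucc 8, Int.ofNat 9, Int.negSucc 8, Int.ofNat 10, Int.negSucc 9, Int.ofNat 10, Int.negSucc 9, Int.ofNat 11, Int.negSucc 10, Int.ofNat 11, Int.negSucc 10, Int.ofNat 12, Int.negSucc 11, Int.ofNat 12, Int.negSucc 11, Int.ofNat 13, Int.negSucc 12, Int.ofNat 13, Int.negSucc 12, Int.ofNat 14, Int.negSucc 13, Int.ofNat 14, Int.negSucc 13, Int.ofNat 15, Int.negSucc 14, Int.ofNat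 15, Int.negSucc 14, Int.ofNat 16, Int.negSucc 15, Int.ofNat 16, Int.negSucc 15, Int.ofNat 17, Int.negSucc 16, Int.ofNat 17, Int.negSucc 16, Int.ofNat 18, Int.negSucc 17, Int.ofNat 18, Int.negSucc 17, Int.ofNat 19, Int.negSucc 18, Int.ofNat 19, Int.negSucc 18, Int.ofNat 20]

def FT9x : List Int := [Int.ofNat 1, Int.ofNat 0, Int.ofNat 0, Int.ofNat 0, Int.ofNat 0, Int.ofNat 1, Int.ofNat 0, Int.ofNat 0, Int.ofNat 0, Int.ofNat 0, Int.ofNat 1, Int.ofNat 0, Int.ofNat 0, Int.ofNat 0, Int.ofNat 0, Int.ofNat 1, Int.ofNat 0, Int.ofNat 0, Int.ofNat 0, Int.ofNat 0, Int.ofNat 1, Int.ofNat 0, Int.ofNat 0, Int.ofNat 0, Int.ofNat 0, Int.ofNat 1, Int.ofNat 0, Int.ofNat 0, Int.ofNat 0, Int.ofNat 0, Int.ofNat 1, Int.ofNat 0, Int.ofNat 0, Int.ofNat 0, Int.ofNat 0, Int.ofNat 1, Int.ofNat 0, Int.ofNat 0, Int.ofNat 0, Int.ofNat 0, Int.ofNat 1, Int.ofNat 0, Int.ofNat 0, Int.ofNat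 0, Int.ofNat 0, Int.ofNat 1, Int.ofNat 0, Int.ofNat 0, Int.ofNat 0, Int.ofNat 0, Int.ofNat 1, Int.ofNat 0, Int.ofNat 0, Int.ofNat 0, Int.ofNat 0, Int.ofNat 1, Int.ofNat 0, Int.ofNat 0, Int.ofNat 0, Int.ofNat 0, Int.ofNat 1, Int.ofNat 0, Int.ofNat 0, Int.ofNat 0, Int.ofNat 0, Int.ofNat 1, Int.ofNat 0, Int.ofNat 0, Int.ofNat 0, Int.ofNat 0, Int.ofNat 1, Int.ofNat 0, Int.ofNat 0, Int.ofNat 0, Int.ofNat 0, Int.ofNat 1, Int.ofNat 0]

def FT10x : List Int := [Int.ofNat 1, Int.negSucc 0, Int.ofNat 0, Int.ofNat 0, Int.ofNat 0, Int.ofNat 0, Int.ofNat 1, Int.negSucc 0, Int.ofNat 0, Int.ofNat 0, Int.ofNat 0, Int.ofNat 0, Int.ofNat 1, Int.negSucc 0, Int.ofNat 0, Int.ofNat 0, Int.ofNat 0, Int.ofNat 0, Int.ofNat 1, Int.negSucc 0, Int.ofNat 0, Int.ofNat 0, Int.ofNat 0, Int.ofNat 0, Int.ofNat 1, Int.negSucc 0, Int.ofNat 0, Int.ofNat 0, Int.ofNat 0, Int.ofNat 0, Int.ofNat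 1, Int.negSucc 0, Int.ofNat 0, Int.ofNat 0, Int.ofNat 0, Int.ofNat 0, Int.ofNat 1, Int.negSucc 0, Int.ofNat 0, Int.ofNat 0, Int.ofNat 0, Int.ofNat 0, Int.ofNat 1, Int.negSucc 0, Int.ofNat 0, Int.ofNat 0, Int.ofNat 0, Int.ofNat 0, Int.ofNat 1, Int.negSucc 0, Int.ofNat 0, Int.ofNat 0, Int.ofNat 0, Int.ofNat 0, Int.ofNat 1, Int.negSucc 0, Int.ofNat 0, Int.ofNat 0, Int.ofNat 0, Int.ofNat 0, Int.ofNat 1, Int.negSucc 0, Int.ofNat 0, Int.ofNat 0, Int.ofNat 0, Int.ofNat 0, Int.ofNat 1, Int.negSucc 0, Int.ofNat 0, Int.ofNat 0, Int.ofNat 0, Int.ofNat 0, Int.ofNat 1, Int.negSucc 0, Int.ofNat 0, Int.ofNat 0, Int.ofNat 0]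

def FT0 : List (Nat × List Int) := [(1, FT0x), (15, FT1x), (45, FT2x), (15, FT3x), (40, FT4x), (120, FT5x), (40, FT6x), (90, FT7x), (90, FT8x), (144, FT9x), (120, FT10x)]

end Vale.Agent.P181.S
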