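import Vale.Agent.P181.S.Spec
import Vale.Agent.P181.S.Phi0

namespace Vale.Agent.P181.S

open Finset

def pk (w R n : ℕ) (g : ℕ → ℕ → ℤ) : ℤ :=
  ∑ e3 ∈ range n, ∑ e2 ∈ range R, g e2 e3 * 2 ^ (w * (e2 + R * e3))

def sv (e : Ent) : ℤ := bif e.s then (e.m : ℤ) else -(e.m : ℤ)

def Rep (w R β n : ℕ) (v : ℤ) (g : ℕ → ℕ → ℤ) : Prop :=
  v = pk w R n g ∧ ∀ e2 < R, ∀ e3 < n, |g e2 e3| ≤ 2 ^ β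

def EV (w R d β k f4 f5 f6 : ℕ) (e : Ent) : Prop :=
  Rep w R β e.n (sv e) fun e2 e3 => al k d e2 e3 f4 f5 f6

def TV (w R d β k : ℕ) (t : Tb) : Prop :=
  ∀ f4 f5 f6, f5 < f4 → f6 < f5 → EV w R d β k f4 f5 f6 (look t f4 f5 f6)

def TW (w R d : ℕ) (T : List Tb) : Prop := 2 ≤ w ∧ ∀ k, TV w R d (w - 2) k (lget [] T k)

def lf (g : ℕ → ℕ → ℕ → ℕ → ℕ → ℤ) (j i f4 f5 f6 e2 e3 : ℕ) : ℤ :=
  ∑ m6 ∈ range (i + 1), ∑ m5 ∈ range (i - m6 + 1),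
    if j * (i - m6 - m5) ≤ f4 ∧ j * m5 ≤ f5 ∧ j * m6 ≤ f6 then
      g e2 e3 (f4 - j * (i - m6 - m5)) (f5 - j * m5) (f6 - j * m6) else 0

def cv (g : ℕ → ℕ → ℤ) (j r e2 e3 : ℕ) : ℤ :=
  ∑ m3 ∈ range (r + 1), ∑ m2 ∈ range (r - m3 + 1),
    if j * m2 ≤ e2 ∧ j * m3 ≤ e3 then g (e2 - j * m2) (e3 - j * m3) else 0

def cnt (d : ℕ) : ℕ := ∑ i ∈ range (d + 1), (i + 1) ^ 2 * (d - i + 1) ^ 2

def z0 (e2 e3 f4 f5 f6 : ℕ) : ℤ :=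
  if e2 + e3 + f4 + f5 + f6 ≤ 15 then a0 (15 - (e2 + e3 + f4 + f5 + f6)) e2 e3 f4 f5 f6 else 0

/-- the check at level zero -/
def chk0 (w R f4 f5 f6 : ℕ) (e : Ent) : Bool :=
  decide (6 ≤ e.n) &&
    decide (sv e = ∑ e3 ∈ range 6, ∑ e2 ∈ range 6,
      z0 e2 e3 f4 f5 f6 * ((2 ^ (w * (e2 + R * e3)) : ℕ) : ℤ)) &&
    decide (∀ e3 ∈ range 6, ∀ e2 ∈ range 6, |z0 e2 e3 f4 f5 f6| ≤ 1)

def FOk (FT : List (ℕ × List ℤ)) : Prop :=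
  List.Forall₂ (fun (x : ℕ × List ℤ) (c : ℕ × List ℕ) => x.1 = c.1 ∧
    (∀ k < 77, lget 0 x.2 k = phz c.2 k ∧ |lget 0 x.2 k| ≤ 2 ^ 21) ∧
    ∀ k < 40, |lget 0 x.2 k| ≤ 2 ^ 17) FT cls

def EnvOk (E : Env) : Prop :=
  TW E.wL 91 6 E.TL ∧ TW E.wH 157 6 E.TH ∧
    (∀ b, 7 ≤ b → b ≤ 24 → TW E.wX (6 * b + 13) b (lget [] E.LT (b - 7))) ∧ FOk E.FT

/-- `l` is a partition of `N` -/
def Par (N l1 l2 l3 l4 l5 l6 : ℕ) : Prop :=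
  l2 ≤ l1 ∧ l3 ≤ l2 ∧ l4 ≤ l3 ∧ l5 ≤ l4 ∧ l6 ≤ l5 ∧ l1 + l2 + l3 + l4 + l5 + l6 = N

def StmtUniq : Prop :=
  ∀ (w R n : ℕ) (g : ℕ → ℕ → ℤ), (∀ e2 < R, ∀ e3 < n, |g e2 e3| < 2 ^ w) →
    (2 ^ (w * R * n) : ℤ) ∣ pk w R n g → ∀ e2 < R, ∀ e3 < n, g e2 e3 = 0

def StmtDok : Prop :=
  ∀ (w R β n : ℕ) (s : Bool) (m : ℕ), β < w → dok w R β n s m = true →
    ∃ g, Rep w R β n (sv ⟨n, s, m⟩) g

def StmtVal : Prop :=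
  ∀ (w R C n' : ℕ) (e : Ent) (g : ℕ → ℕ → ℤ) (r p v : ℕ), 2 ≤ w → C ≤ R → e.n ≤ n' →
    Rep w R (w - 2) n' (sv e) g → 1 ≤ p → (r < e.n → p < C → 0 ≤ g p r) →
    getD w (rowE w R C e r) p = v + 1 → r < e.n ∧ p < C ∧ g p r = v

def StmtSl : Prop :=
  ∀ (w R d β k : ℕ) (t : Tb), TV w R d β k t →
    ∀ a b c, EV w R d β k a b c (sl t (k * d + 15) a b c)

def StmtLay : Prop :=
  ∀ (w R β nt : ℕ) (t : Tb) (N j i f4 f5 f6 : ℕ) (g : ℕ → ℕ → ℕ → ℕ → ℕ → ℤ), 1 ≤ j →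
    (∀ a b c, Rep w R β (sl t N a b c).n (sv (sl t N a b c)) fun e2 e3 => g e2 e3 a b c) →
    (lay t N nt j i f4 f5 f6).ok = true →
    ((lay t N nt j i f4 f5 f6).p : ℤ) - (lay t N nt j i f4 f5 f6).q ≡
        pk w R nt (lf g j i f4 f5 f6) [ZMOD 2 ^ (w * R * nt)] ∧
      ∀ e2 < R, ∀ e3 < nt, |lf g j i f4 f5 f6 e2 e3| ≤ (i + 1) ^ 2 * 2 ^ β

def StmtMul : Prop :=
  ∀ (w R n j r : ℕ) (g : ℕ → ℕ → ℤ), 1 ≤ j →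
    (∀ e2 < R, ∀ e3 < n, g e2 e3 ≠ 0 → e2 + j * r < R) →
    (pp w R n j r : ℤ) * pk w R n g ≡ pk w R n (cv g j r) [ZMOD 2 ^ (w * R * n)]

def StmtStep : Prop :=
  ∀ (T : List Tb) (w R d : ℕ) (B : ℕ → ℕ) (k f4 f5 f6 : ℕ) (e : Ent), 1 ≤ k → f5 < f4 → f6 < f5 →
    k * d + 12 < R → k * 2 ^ B k + cnt d * ∑ k' ∈ range k, 2 ^ B k' < 2 ^ w →
    (∀ k' < k, TV w R d (B k') k' (lget [] T k')) →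
    chk1 T w R d (B k) k f4 f5 f6 e = true → EV w R d (B k) k f4 f5 f6 e

def StmtTab : Prop :=
  ∀ (T : List Tb) (w R d K : ℕ) (B : ℕ → ℕ), shp T K = true → K * d + 12 < R →
    (∀ k ≤ K, B k + 2 ≤ w ∧ k * 2 ^ B k + cnt d * ∑ k' ∈ range k, 2 ^ B k' < 2 ^ w) →
    allR (rowC (lget [] T 0) (chk0 w R)) 0 512 = true →
    (∀ k, 1 ≤ k → k ≤ K → chkR T w R d (B k) k 0 512 = true) → TW w R d T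

def StmtPhi : Prop := FOk FT0

def StmtUV : Prop :=
  ∀ FT, FOk FT → ∀ a b c n : ℕ, b ≤ a → c ≤ a →
    ∃ g, Rep 112 81 110 ((uent FT a b c n).n + 4) (sv (uent FT a b c n)) g ∧
      ∀ e2 < 77, ∀ e3 < (uent FT a b c n).n, g e2 e3 = UU ![e2, e3, a, b, c]

def StmtGet : Prop :=
  ∀ (T : List Tb) (w R d : ℕ), TW w R d T → ∀ k l1 l2 l3 l4 l5 l6 v : ℕ,
    Par (k * d) l1 l2 l3 l4 l5 l6 →
    getD w (rowT T w R k (l3 + 3) (l4 + 2) (l5 + 1) l6) (l2 + 4) = v + 1 →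
    mult 6 k d ![l1, l2, l3, l4, l5, l6] = v

def StmtLow : Prop :=
  ∀ E : Env, EnvOk E →
    (∀ x b l1 l2 l3 l4 l5 l6 : ℕ, Par (6 * b) l1 l2 l3 l4 l5 l6 →
      low E x b l2 l3 l4 l5 l6 ≤ mult 6 b 6 ![l1, l2, l3, l4, l5, l6]) ∧
    (pos E 256 = true → mult 6 1 6 ![6, 0, 0, 0, 0, 0] ≠ 0)

def StmtSta : Prop :=
  ∀ FT, FOk FT → ∀ n a b l1 l2 l3 l4 l5 l6 : ℕ, Par (6 * b) l1 l2 l3 l4 l5 l6 →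
    le1 (getD 112 (rowE 112 81 77 (uent FT (l4 + 2) (l5 + 1) l6 n) (l3 + 3)) (l2 + 4)) (720 * a)
      = true → mult 6 6 b ![l1, l2, l3, l4, l5, l6] ≤ a

def StmtExc : Prop :=
  ∀ E : Env, EnvOk E → ∀ t a b l1 l2 l3 l4 l5 l6 : ℕ, 7 ≤ b → b ≤ 24 →
    Par (6 * b) l1 l2 l3 l4 l5 l6 → exc E t a b l2 l3 l4 l5 l6 (l3 + l4 + l5 + l6) = true →
    mult 6 6 b ![l1, l2, l3, l4, l5, l6] ≤ a

def StmtRun : Prop :=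
  ∀ (E : Env) (cs : List (List (List ℕ))) (lo len : ℕ), EnvOk E → pos E 256 = true →
    covR E cs lo len = true → ∀ b l1 l2 l3 l4 l5 l6 : ℕ, 7 ≤ b → b ≤ 24 →
    Par (6 * b) l1 l2 l3 l4 l5 l6 → lo ≤ 32 * l6 + (l5 - l6) → 32 * l6 + (l5 - l6) < lo + len →
    mult 6 6 b ![l1, l2, l3, l4, l5, l6] ≤ mult 6 b 6 ![l1, l2, l3, l4, l5, l6]

end Vale.Agent.P181.S
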